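import Vale.Agent.Lib.P058R.Final

namespace Vale.Agent.Results.P058.A0_threevalued

open Vale.Agent.Lib.P058R

/-- New families of Ramsey sets with non-soluble symmetry.

1. For `u : Fin 3 → ℝ^κ` and a radius vector `r : Fin n → Fin 3` with `RadCond r` (radius `2` is
   not used at all, or it is used exactly once and radius `1` at most three times), the set
   of all points of `(ℝ^κ)^n` whose `i`-th block is `± u (r (σ i))` (a permutation `σ`, all sign
   choices) is Ramsey.
2. If a tuple `p` of points of `ℝ^κ` satisfies `p i = μ ± u (r i)` with `RadCond r`, then its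
   permutation orbit is Ramsey.
3. The same for real vectors: `x i = μ ± v (r i)`, `RadCond r`.
4. Every tuple of points taken from a three-point set has a Ramsey permutation orbit.
5. Every real vector with entries in a three-element set has a Ramsey permutation orbit.
6. In particular the orbit of `(-2, -1, 0, 1, 2)` under all coordinate permutations is Ramsey. -/
theorem result :
    (∀ {n : ℕ} {κ : Type} [Fintype κ] (u : Fin 3 → κ → ℝ) (r : Fin n → Fin 3),
      RadCond r → IsRamsey (signedOrbit u r)) ∧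
    (∀ {n : ℕ} {κ : Type} [Fintype κ] (p : Fin n → κ → ℝ) (μ : κ → ℝ) (u : Fin 3 → κ → ℝ)
      (r : Fin n → Fin 3), RadCond r →
      (∀ i, (∀ j, p i j = μ j + u (r i) j) ∨ (∀ j, p i j = μ j - u (r i) j)) →
      IsRamsey (letterOrbit p)) ∧
    (∀ {n : ℕ} (x : Fin n → ℝ) (μ : ℝ) (v : Fin 3 → ℝ) (r : Fin n → Fin 3), RadCond r →
      (∀ i, x i = μ + v (r i) ∨ x i = μ - v (r i)) → IsRamsey (realOrbit x)) ∧
    (∀ {n : ℕ} {κ : Type} [Fintype κ] (p : Fin n → κ → ℝ) (a b c : κ → ℝ),
      (∀ i, p i = a ∨ p i = b ∨ p i = c) → IsRamsey (letterOrbit p)) ∧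
    (∀ {n : ℕ} (x : Fin n → ℝ) (a b c : ℝ),
      (∀ i, x i = a ∨ x i = b ∨ x i = c) → IsRamsey (realOrbit x)) ∧
    IsRamsey (realOrbit (![-2, -1, 0, 1, 2] : Fin 5 → ℝ)) := by
  refine ⟨fun u r hr => signedOrbit_isRamsey u r hr,
    fun p μ u r hr hp => letterOrbit_isRamsey p μ u r hr hp,
    fun x μ v r hr hx => realOrbit_isRamsey x μ v r hr hx,
    fun p a b c hp => letterOrbit_three p a b c hp,
    fun x a b c hx => realOrbit_three x a b c hx, ?_⟩
  refine realOrbit_isRamsey _ 0 ![1, 2, 0] ![1, 0, 2, 0, 1] (Or.inr ⟨by decide, by decide⟩) ?_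
  intro i
  fin_cases i <;> simp

end Vale.Agent.Results.P058.A0_threevalued
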