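import Vale.Agent.Lib.P058_helper23.Rational

namespace Vale.Agent.Results.P058.B_rational

open Vale.Agent.Lib.P058_helper23

/-- Every cyclic quadrilateral whose diagonals divide each other in rational ratios is
subtransitive: if `p 0, p 1, p 2, p 3` are four distinct points of a sphere and
`a p₀ + b p₂ = c p₁ + d p₃` with positive integers `a + b = c + d` (so the diagonals `p₀p₂` and
`p₁p₃` cross at one point, dividing them in the ratios `b : a` and `d : c`), then the four points
are congruent to a subset of a finite transitive set. All shapes are covered: the angle between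
the diagonals is arbitrary. -/
theorem result {D : ℕ} (p : Fin 4 → E D) (a b c d : ℕ)
    (ha : 0 < a) (hb : 0 < b) (hc : 0 < c) (hd : 0 < d) (hs : a + b = c + d)
    (hrel : (a : ℝ) • p 0 + (b : ℝ) • p 2 = (c : ℝ) • p 1 + (d : ℝ) • p 3)
    (hsph : ∃ (z : E D) (R : ℝ), ∀ i, dist (p i) z = R)
    (hinj : Function.Injective p) : IsSubtransitive (Set.range p) :=
  rational_quadrilateral_subtransitive p a b c d ha hb hc hd hs hrel hsph hinj

end Vale.Agent.Results.P058.B_rational
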