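import Vale.Agent.Lib.P058_helper23.Conj

namespace Vale.Agent.Results.P058.C_conjugate

open Vale.Agent.Lib.P058_helper23

/-- Necessary conditions for subtransitivity through field conjugation.

1. (conjugate realization) if `{p i}` is a subtransitive set of distinct points, `K` a subfield of
   the reals and `ψ : K → ℝ` a field embedding, then distinct points `u i` on a common sphere
   satisfy the `ψ`-conjugate of every `K`-rational affine dependency of the `p i`;
2. (conjugate criterion) in particular, if the conjugate dependency has at most one positive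
   coefficient, at `i0`, then every point with negative conjugate coefficient equals `p i0`;
3. if the diagonals of four distinct points cross at `μ p₀ + (1-μ) p₂ = ν p₁ + (1-ν) p₃` with
   `μ > 0`, `0 < ν < 1` and `μ, ν` algebraically independent, the set is not subtransitive;
4. the explicit kite on the unit circle with vertices `(1,0)`, `(h,k)`, `(-1,0)`, `(h,-k)`,
   `h = √2 - 1`, `k = √(2√2 - 2)`, is not subtransitive. -/
theorem result :
    (∀ {d : ℕ} {ι : Type} [Fintype ι] (K : Subfield ℝ) (ψ : K →+* ℝ) (p : ι → E d),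
      Function.Injective p → IsSubtransitive (Set.range p) →
      ∃ (κ : Type) (_ : Fintype κ) (u : ι → EuclideanSpace ℝ κ),
        Function.Injective u ∧ (∀ i j, ‖u i‖ = ‖u j‖) ∧
        ∀ lam : ι → K, ∑ i, lam i = 0 → ∑ i, ((lam i : K) : ℝ) • p i = 0 →
          ∑ i, ψ (lam i) • u i = 0) ∧
    (∀ {d : ℕ} {ι : Type} [Fintype ι] (K : Subfield ℝ) (ψ : K →+* ℝ) (p : ι → E d),
      IsSubtransitive (Set.range p) → ∀ lam : ι → K, ∑ i, lam i = 0 →
        ∑ i, ((lam i : K) : ℝ) • p i = 0 → ∀ i0 : ι, (∀ i, i ≠ i0 → ψ (lam i) ≤ 0) →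
        ∀ i, ψ (lam i) < 0 → p i = p i0) ∧
    (∀ {d : ℕ} (p : Fin 4 → E d) (μ ν : ℝ), 0 < μ → 0 < ν → ν < 1 →
      AlgebraicIndependent ℚ ![μ, ν] →
      μ • p 0 + (1 - μ) • p 2 = ν • p 1 + (1 - ν) • p 3 →
      Function.Injective p → ¬ IsSubtransitive (Set.range p)) ∧
    (let h : ℝ := Real.sqrt 2 - 1
     let k : ℝ := Real.sqrt (2 * Real.sqrt 2 - 2)
     let p : Fin 4 → E 2 := ![WithLp.toLp 2 ![1, 0], WithLp.toLp 2 ![h, k], WithLp.toLp 2 ![-1, 0],
       WithLp.toLp 2 ![h, -k]]
     (∀ i, ‖p i‖ = 1) ∧ Function.Injective p ∧ ¬ IsSubtransitive (Set.range p)) :=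
  ⟨fun K ψ p hinj hp => conjugate_realization K ψ p hinj hp,
   fun K ψ p hp lam hsum hdep i0 hc0 i hi => conjugate_criterion K ψ p hp lam hsum hdep i0 hc0 i hi,
   fun p μ ν hμ h0 h1 hind hrel hinj => generic_not_subtransitive p μ ν hμ h0 h1 hind hrel hinj,
   kite_not_subtransitive⟩

end Vale.Agent.Results.P058.C_conjugate
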