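import Vale.Agent.Results.P058.A00_soluble
import Vale.Agent.Results.P058.A0_threevalued
import Vale.Agent.Results.P058.B_rational
import Vale.Agent.Results.P058.C_conjugate

namespace Vale.Agent.Results.P058.A00_master

open Vale.Agent.Lib.P058R Vale.Agent.Lib.P058_helper23

/-- Arrangements of orbits of a finite soluble group of isometries, and all orbits of such groups,
are Ramsey. -/
def SolublePart : Prop :=
    (∀ {n : ℕ} {κ : Type} [Fintype κ]
      (H : Subgroup (EuclideanSpace ℝ κ ≃ᵢ EuclideanSpace ℝ κ)) [Finite H] [Group.IsSolvable H]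
      (u : Fin 3 → EuclideanSpace ℝ κ) (r : Fin n → Fin 3),
      RadCond r → IsRamsey (orbitArrangement H u r)) ∧
    (∀ {κ : Type} [Fintype κ]
      (H : Subgroup (EuclideanSpace ℝ κ ≃ᵢ EuclideanSpace ℝ κ)) [Finite H] [Group.IsSolvable H]
      (p : EuclideanSpace ℝ κ), IsRamsey {y : EuclideanSpace ℝ κ | ∃ h ∈ H, y = h p})

/-- The signed arrangements, permutation orbits of tuples `μ ± u (r i)` and of real vectors
`μ ± v (r i)` with `RadCond r`, permutation orbits of tuples with at most three distinct entries,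
and the orbit of `(-2, -1, 0, 1, 2)` are Ramsey. -/
def ThreeValuedPart : Prop :=
    (∀ {n : ℕ} {κ : Type} [Fintype κ] (u : Fin 3 → κ → ℝ) (r : Fin n → Fin 3),
      RadCond r → IsRamsey (signedOrbit u r)) ∧
    (∀ {n : ℕ} {κ : Type} [Fintype κ] (p : Fin n → κ → ℝ) (μ : κ → ℝ) (u : Fin 3 → κ → ℝ)
      (r : Fin n → Fin 3), RadCond r →
      (∀ i, (∀ j, p i j = μ j + u (r i) j) ∨ (∀ j, p i j = μ j - u (r i) j)) →
      IsRamsey (letterOrbit p)) ∧
    (∀ {n : ℕ} (x : Fin n → ℝ) (μ : ℝ) (v : Fin 3 → ℝ) (r : Fin n → Fin 3), RadCond r →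
      (∀ i, x i = μ + v (r i) ∨ x i = μ - v (r i)) → IsRamsey (realOrbit x)) ∧
    (∀ {n : ℕ} {κ : Type} [Fintype κ] (p : Fin n → κ → ℝ) (a b c : κ → ℝ),
      (∀ i, p i = a ∨ p i = b ∨ p i = c) → IsRamsey (letterOrbit p)) ∧
    (∀ {n : ℕ} (x : Fin n → ℝ) (a b c : ℝ),
      (∀ i, x i = a ∨ x i = b ∨ x i = c) → IsRamsey (realOrbit x)) ∧
    IsRamsey (realOrbit (![-2, -1, 0, 1, 2] : Fin 5 → ℝ))

/-- Cyclic quadrilaterals whose diagonals divide each other in rational ratios are subtransitive. -/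
def RationalPart : Prop :=
    ∀ {D : ℕ} (p : Fin 4 → E D) (a b c d : ℕ),
      0 < a → 0 < b → 0 < c → 0 < d → a + b = c + d →
      (a : ℝ) • p 0 + (b : ℝ) • p 2 = (c : ℝ) • p 1 + (d : ℝ) • p 3 →
      (∃ (z : E D) (R : ℝ), ∀ i, dist (p i) z = R) →
      Function.Injective p → IsSubtransitive (Set.range p)

/-- Necessary conditions for subtransitivity through field conjugation: conjugate realization,
conjugate criterion. -/
def ConjugatePartA : Prop :=
    (∀ {d : ℕ} {ι : Type} [Fintype ι] (K : Subfield ℝ) (ψ : K →+* ℝ) (p : ι → E d),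
      Function.Injective p → IsSubtransitive (Set.range p) →
      ∃ (κ : Type) (_ : Fintype κ) (u : ι → EuclideanSpace ℝ κ),
        Function.Injective u ∧ (∀ i j, ‖u i‖ = ‖u j‖) ∧
        ∀ lam : ι → K, ∑ i, lam i = 0 → ∑ i, ((lam i : K) : ℝ) • p i = 0 →
          ∑ i, ψ (lam i) • u i = 0) ∧
    (∀ {d : ℕ} {ι : Type} [Fintype ι] (K : Subfield ℝ) (ψ : K →+* ℝ) (p : ι → E d),
      IsSubtransitive (Set.range p) → ∀ lam : ι → K, ∑ i, lam i = 0 →
        ∑ i, ((lam i : K) : ℝ) • p i = 0 → ∀ i0 : ι, (∀ i, i ≠ i0 → ψ (lam i) ≤ 0) →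
        ∀ i, ψ (lam i) < 0 → p i = p i0)

/-- Not subtransitive: algebraically independent diagonal ratios, and an explicit kite. -/
def ConjugatePartB : Prop :=
    (∀ {d : ℕ} (p : Fin 4 → E d) (μ ν : ℝ), 0 < μ → 0 < ν → ν < 1 →
      AlgebraicIndependent ℚ ![μ, ν] →
      μ • p 0 + (1 - μ) • p 2 = ν • p 1 + (1 - ν) • p 3 →
      Function.Injective p → ¬ IsSubtransitive (Set.range p)) ∧
    (let h : ℝ := Real.sqrt 2 - 1
     let k : ℝ := Real.sqrt (2 * Real.sqrt 2 - 2)
     let p : Fin 4 → E 2 := ![WithLp.toLp 2 ![1, 0], WithLp.toLp 2 ![h, k], WithLp.toLp 2 ![-1, 0],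
       WithLp.toLp 2 ![h, -k]]
     (∀ i, ‖p i‖ = 1) ∧ Function.Injective p ∧ ¬ IsSubtransitive (Set.range p))

/-- The four parts together. -/
theorem result :
    SolublePart ∧ ThreeValuedPart ∧ RationalPart ∧ ConjugatePartA ∧ ConjugatePartB :=
  ⟨Vale.Agent.Results.P058.A00_soluble.result,
   Vale.Agent.Results.P058.A0_threevalued.result,
   fun p a b c d ha hb hc hd hs hrel hsph hinj =>
     Vale.Agent.Results.P058.B_rational.result p a b c d ha hb hc hd hs hrel hsph hinj,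
   ⟨Vale.Agent.Results.P058.C_conjugate.result.1, Vale.Agent.Results.P058.C_conjugate.result.2.1⟩,
   Vale.Agent.Results.P058.C_conjugate.result.2.2⟩

end Vale.Agent.Results.P058.A00_master
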