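import Vale.Agent.Lib.P058R.FinalG

namespace Vale.Agent.Results.P058.A00_soluble

open Vale.Agent.Lib.P058R

/-- Arrangements of orbits of a finite soluble group of isometries.

1. Let `H` be a finite soluble group of isometries of `ℝ^κ`, `u : Fin 3 → ℝ^κ` and
   `r : Fin n → Fin 3` with `RadCond r` (radius `2` is not used at all, or it is used exactly
   once and radius `1` at most three times). Then the set `orbitArrangement H u r` of all points
   of `(ℝ^κ)^n` whose `i`-th block lies in the `H`-orbit of `u (r (σ i))`, for some permutation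
   `σ` of the positions (the points in the orbits chosen independently), is Ramsey.
2. Case `n = 1`: every orbit of a finite soluble group of isometries is Ramsey. -/
theorem result :
    (∀ {n : ℕ} {κ : Type} [Fintype κ]
      (H : Subgroup (EuclideanSpace ℝ κ ≃ᵢ EuclideanSpace ℝ κ)) [Finite H] [Group.IsSolvable H]
      (u : Fin 3 → EuclideanSpace ℝ κ) (r : Fin n → Fin 3),
      RadCond r → IsRamsey (orbitArrangement H u r)) ∧
    (∀ {κ : Type} [Fintype κ]
      (H : Subgroup (EuclideanSpace ℝ κ ≃ᵢ EuclideanSpace ℝ κ)) [Finite H] [Group.IsSolvable H]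
      (p : EuclideanSpace ℝ κ), IsRamsey {y : EuclideanSpace ℝ κ | ∃ h ∈ H, y = h p}) :=
  ⟨fun H _ _ u r hr => orbitArrangement_isRamsey H u r hr,
    fun H _ _ p => soluble_orbit_isRamsey H p⟩

end Vale.Agent.Results.P058.A00_soluble
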